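import Vale.Agent.P284.H446.FolSub
import Mathlib.MeasureTheory.Measure.Lebesgue.Basic
import Mathlib.MeasureTheory.Integral.Bochner.Set
import Mathlib.Topology.Algebra.InfiniteSum.Real
import Mathlib.Analysis.Normed.Group.InfiniteSum
import Mathlib.Data.Set.Card.Arithmetic
import Mathlib.GroupTheory.Solvable
import Mathlib.GroupTheory.Index
import Mathlib.GroupTheory.Abelianization.Defs

/-!
# P284Z, block R: amenable groups (conditions of Følner and Reiter)
-/

open scoped Topology Pointwise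
open Filter Set MeasureTheory

noncomputable section

namespace Vale.Agent.P284Z.Am

open Vale.Agent.P284.H894.G Vale.Agent.P284.H446.QC

variable {G A X : Type*} [Group G] [Group A]

/-- Reiter's condition -/
def Reiter (G : Type*) [Group G] : Prop :=
  ∀ S : Set G, S.Finite → ∀ η : ℝ, 0 < η → ∃ m : G → ℝ, (∀ g, 0 ≤ m g) ∧ HasSum m 1 ∧
    ∀ s ∈ S, ∑' h, |m (s⁻¹ * h) - m h| ≤ η

theorem ncard_bad (t : G) (F : Set G) :
    {a | a ∈ F ∧ t * a ∉ F}.ncard = ((t • F) \ F).ncard := by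
  rw [← Set.ncard_image_of_injective {a | a ∈ F ∧ t * a ∉ F} (mul_right_injective t)]
  congr 1
  ext x
  constructor
  · rintro ⟨a, ⟨h1, h2⟩, rfl⟩
    exact ⟨⟨a, h1, rfl⟩, h2⟩
  · rintro ⟨⟨a, h1, rfl⟩, h2⟩
    exact ⟨a, ⟨h1, h2⟩, rfl⟩

theorem summable_diff {m : X → ℝ} (hm : Summable m) (e : X ≃ X) :
    Summable fun x => |m (e x) - m x| := ((e.summable_iff.2 hm).sub hm).abs

/-- the layer cake argument -/
theorem folner_of_reiter (h : Reiter G) : Folner G := by
  classical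
  intro S hS ε hε
  by_contra hcon
  push Not at hcon
  obtain ⟨S, rfl⟩ := hS.exists_finset_coe
  obtain ⟨η, hη, hη1, hη2⟩ : ∃ η : ℝ, 0 < η ∧ η < 1 / 2 ∧ S.card * (2 * η) < ε / 2 := by
    have h1 : ∀ᶠ η in 𝓝 (0 : ℝ), η < 1 / 2 ∧ S.card * (2 * η) < ε / 2 :=
      (continuousAt_id.eventually_lt continuousAt_const (by norm_num)).and
        (ContinuousAt.eventually_lt (by fun_prop) continuousAt_const (by simpa using hε))
    obtain ⟨η, h2, h3⟩ := ((h1.filter_mono (nhdsWithin_le_nhds (s := Ioi 0))).and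
      self_mem_nhdsWithin).exists
    exact ⟨η, h3, h2⟩
  obtain ⟨m, h0, h1, hm⟩ := h S S.finite_toSet η hη
  obtain ⟨T, hT⟩ : ∃ T : Finset G, 1 - η < ∑ x ∈ T, m x :=
    (h1.eventually (Ioi_mem_nhds (by linarith : 1 - η < 1))).exists
  obtain ⟨m', hm'⟩ : ∃ m' : G → ℝ, ∀ x, m' x = if x ∈ T then m x else 0 := ⟨_, fun _ => rfl⟩
  have h2 : ∀ t : ℝ, ε * ∑ x ∈ T, (Ioo 0 (m x)).indicator (1 : ℝ → ℝ) t ≤
      ∑ s ∈ S, ∑ x ∈ T, (Ico (m' (s * x)) (m x)).indicator (1 : ℝ → ℝ) t := fun t => by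
    have h3 : ∀ s ∈ S, 0 ≤ ∑ x ∈ T, (Ico (m' (s * x)) (m x)).indicator (1 : ℝ → ℝ) t :=
      fun s _ => Finset.sum_nonneg fun x _ => indicator_nonneg (fun _ _ => zero_le_one) t
    by_cases hne : ∃ x ∈ T, t ∈ Ioo 0 (m x)
    swap
    · push Not at hne
      rw [Finset.sum_eq_zero fun x hx => indicator_of_notMem (hne x hx) _, mul_zero]
      exact Finset.sum_nonneg h3
    obtain ⟨x₀, hx₀, ht, ht'⟩ := hne
    obtain ⟨s, hs, h4⟩ := hcon (T.filter fun x => t < m x) (Finset.finite_toSet _)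
      ⟨x₀, by simp [hx₀, ht']⟩
    refine le_trans (le_of_eq ?_) (h4.le.trans (le_trans (le_of_eq ?_)
      (Finset.single_le_sum h3 hs)))
    · rw [Set.ncard_coe_finset, Finset.card_filter]
      push_cast
      simp [indicator_apply, ht]
    · rw [← ncard_bad, show {a | a ∈ ((T.filter fun x => t < m x : Finset G) : Set G) ∧
          s * a ∉ ((T.filter fun x => t < m x : Finset G) : Set G)} =
          (T.filter fun x => t ∈ Ico (m' (s * x)) (m x) : Finset G) from ?_,
        Set.ncard_coe_finset, Finset.card_filter]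
      · push_cast
        simp [indicator_apply]
      ext a
      by_cases h5 : s * a ∈ T <;> simp [hm', h5, ht.le, and_comm, and_assoc, and_left_comm]
  have hi : ∀ {I : Set ℝ}, MeasurableSet I → volume I ≠ ⊤ →
      Integrable (I.indicator (1 : ℝ → ℝ)) := fun hI hI' =>
    (integrable_indicator_iff hI).2 (integrableOn_const hI')
  have h3 := integral_mono ((integrable_finsetSum T fun x _ =>
    hi measurableSet_Ioo (by simp)).const_mul ε) (integrable_finsetSum S fun s _ =>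
      integrable_finsetSum T fun x _ => hi measurableSet_Ico (by simp)) h2
  rw [integral_const_mul, integral_finsetSum T fun x _ => hi measurableSet_Ioo (by simp),
    integral_finsetSum S fun s _ =>
      integrable_finsetSum T fun x _ => hi measurableSet_Ico (by simp)] at h3
  have h4 : ∀ s ∈ S, ∫ t, ∑ x ∈ T, (Ico (m' (s * x)) (m x)).indicator (1 : ℝ → ℝ) t ≤ 2 * η := by
    intro s hs
    rw [integral_finsetSum T fun x _ => hi measurableSet_Ico (by simp)]
    simp only [integral_indicator_one measurableSet_Ico, Real.volume_real_Ico]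
    have h5 : ∀ x, 0 ≤ m x - m' x := fun x => by
      rw [hm']
      split_ifs
      · simp
      · simpa using h0 x
    have h6 : HasSum (fun x => m x - m' x) (1 - ∑ x ∈ T, m x) := by
      refine h1.sub ?_
      rw [← Finset.sum_congr rfl fun x hx => (hm' x).trans (if_pos hx)]
      exact hasSum_sum_of_ne_finset_zero fun x hx => (hm' x).trans (if_neg hx)
    have h7 := sum_le_hasSum (T.map (Equiv.mulLeft s).toEmbedding) (fun x _ => h5 x) h6
    have h8 := ((summable_diff h1.summable (Equiv.mulLeft s⁻¹)).sum_le_tsum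
      (T.map (Equiv.mulLeft s).toEmbedding) fun x _ => abs_nonneg _).trans (hm s hs)
    simp only [Finset.sum_map, Equiv.coe_toEmbedding, Equiv.coe_mulLeft, inv_mul_cancel_left]
      at h7 h8
    refine (Finset.sum_le_sum (g := fun x => |m x - m (s * x)| + (m (s * x) - m' (s * x)))
      fun x _ => max_le ?_ (add_nonneg (abs_nonneg _) (h5 _))).trans ?_
    · linarith [le_abs_self (m x - m (s * x))]
    · rw [Finset.sum_add_distrib]
      linarith
  have h5 := h3.trans (Finset.sum_le_sum h4)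
  simp only [integral_indicator_one measurableSet_Ioo, Real.volume_real_Ioo, sub_zero,
    max_eq_left (h0 _), Finset.sum_const, nsmul_eq_mul] at h5
  nlinarith

theorem reiter_of_folner (h : Folner G) : Reiter G := by
  classical
  intro S hS η hη
  obtain ⟨F, hF, hne, hs⟩ := h (S ∪ S⁻¹) (hS.union hS.inv) (η / 2) (half_pos hη)
  obtain ⟨F, rfl⟩ := hF.exists_finset_coe
  have hc : (0 : ℝ) < F.card := Nat.cast_pos.2 (Finset.card_pos.2 hne)
  refine ⟨fun g => if g ∈ F then (F.card : ℝ)⁻¹ else 0, fun g => by positivity, ?_,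
    fun s hs' => ?_⟩
  · have h1 := hasSum_sum_of_ne_finset_zero (L := .unconditional G) (s := F)
      (f := fun g => if g ∈ F then (F.card : ℝ)⁻¹ else 0) fun g hg => if_neg hg
    rwa [Finset.sum_congr rfl fun g hg => if_pos hg, Finset.sum_const, nsmul_eq_mul,
      mul_inv_cancel₀ hc.ne'] at h1
  have h1 := hs s (Or.inl hs')
  have h2 := hs s⁻¹ (Or.inr (by simpa using hs'))
  rw [← ncard_bad] at h2
  obtain ⟨B₁, hB₁⟩ := (F.finite_toSet.smul_set (a := s)).sdiff (t := F) |>.exists_finset_coe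
  obtain ⟨B₂, hB₂⟩ := (F.finite_toSet.subset (t := {a | a ∈ (F : Set G) ∧ s⁻¹ * a ∉ (F : Set G)})
    fun a h => h.1).exists_finset_coe
  rw [← hB₁, Set.ncard_coe_finset, Set.ncard_coe_finset] at h1
  rw [← hB₂, Set.ncard_coe_finset, Set.ncard_coe_finset] at h2
  have h3 : ∀ g, g ∈ B₁ ↔ s⁻¹ * g ∈ F ∧ g ∉ F := fun g => by
    rw [← Finset.mem_coe, hB₁, Set.mem_sdiff, mem_smul_set_iff_inv_smul_mem]
    rfl
  have h4 : ∀ g, g ∈ B₂ ↔ g ∈ F ∧ s⁻¹ * g ∉ F := fun g => by
    rw [← Finset.mem_coe, hB₂]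
    rfl
  rw [tsum_eq_sum (s := B₁ ∪ B₂) fun g hg => by
    rw [Finset.mem_union, h3, h4] at hg
    by_cases a1 : g ∈ F <;> by_cases a2 : s⁻¹ * g ∈ F <;> simp_all]
  refine (Finset.sum_le_card_nsmul _ _ (F.card : ℝ)⁻¹ fun g _ => ?_).trans ?_
  · beta_reduce
    split_ifs <;> simp
  rw [nsmul_eq_mul, ← div_eq_mul_inv, div_le_iff₀ hc]
  have h5 : ((B₁ ∪ B₂).card : ℝ) ≤ B₁.card + B₂.card := by exact_mod_cast Finset.card_union_le _ _
  linarith

/-- a group which is not amenable has a gap -/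
theorem gap (h : ¬ Folner G) : ∃ S : Set G, S.Finite ∧ ∃ ε₀ : ℝ, 0 < ε₀ ∧
    ∀ m : G → ℝ, (∀ g, 0 ≤ m g) → HasSum m 1 → ∃ s ∈ S, ε₀ < ∑' h, |m (s⁻¹ * h) - m h| := by
  by_contra hc
  push Not at hc
  exact h (folner_of_reiter hc)

/-- the image of a measure -/
def push (π : X → G) (m : X → ℝ) (g : G) : ℝ := ∑' x : π ⁻¹' {g}, m x

omit [Group G] in
theorem push_nonneg (π : X → G) {m : X → ℝ} (h : ∀ x, 0 ≤ m x) (g : G) : 0 ≤ push π m g :=
  tsum_nonneg fun x => h x

omit [Group G] in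
theorem hasSum_push (π : X → G) {m : X → ℝ} {a : ℝ} (h : HasSum m a) : HasSum (push π m) a :=
  h.tsum_fiberwise π

omit [Group G] in
theorem push_diff (π : X → G) {a b : X → ℝ} (ha : Summable a) (hb : Summable b) :
    ∑' g, |push π a g - push π b g| ≤ ∑' x, |a x - b x| := by
  have h1 := hasSum_push π (ha.sub hb).abs.hasSum
  refine hasSum_le (fun g => ?_)
    ((hasSum_push π ha.hasSum).summable.sub (hasSum_push π hb.hasSum).summable).abs.hasSum h1
  unfold push
  rw [← Summable.tsum_sub (f := fun x : π ⁻¹' {g} => a x) (g := fun x : π ⁻¹' {g} => b x)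
    (ha.subtype _) (hb.subtype _)]
  exact norm_tsum_le_tsum_norm (f := fun x : π ⁻¹' {g} => a x - b x) ((ha.sub hb).subtype _).abs

theorem push_shift (π : X → G) (m : X → ℝ) (e : X ≃ X) {s : G} (he : ∀ x, π (e x) = s * π x)
    (g : G) : push π m (s⁻¹ * g) = push π (fun x => m (e.symm x)) g := by
  unfold push
  rw [← (e.subtypeEquiv (p := fun x => x ∈ π ⁻¹' {s⁻¹ * g}) (q := fun x => x ∈ π ⁻¹' {g})
    fun x => by simp [he, eq_inv_mul_iff_mul_eq]).tsum_eq]
  simp

/-- Reiter's condition on a set with an equivariant map to the group -/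
theorem folner_of_maps (π : X → G)
    (h : ∀ S : Set G, S.Finite → ∀ η : ℝ, 0 < η → ∃ m : X → ℝ, (∀ x, 0 ≤ m x) ∧ HasSum m 1 ∧
      ∀ s ∈ S, ∃ e : X ≃ X, (∀ x, π (e x) = s * π x) ∧ ∑' x, |m (e.symm x) - m x| ≤ η) :
    Folner G := folner_of_reiter fun S hS η hη => by
  obtain ⟨m, h0, h1, hm⟩ := h S hS η hη
  refine ⟨push π m, push_nonneg π h0, hasSum_push π h1, fun s hs => ?_⟩
  obtain ⟨e, he, h2⟩ := hm s hs
  simp only [push_shift π m e he]
  exact (push_diff π (e.symm.summable_iff.2 h1.summable) h1.summable).trans h2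

theorem folner_of_act [MulAction G X] (π : X → G) (hπ : ∀ g x, π (g • x) = g * π x)
    (h : ∀ S : Set G, S.Finite → ∀ η : ℝ, 0 < η → ∃ m : X → ℝ, (∀ x, 0 ≤ m x) ∧ HasSum m 1 ∧
      ∀ s ∈ S, ∑' x, |m (s⁻¹ • x) - m x| ≤ η) : Folner G :=
  folner_of_maps π fun S hS η hη => (h S hS η hη).imp fun _ hm =>
    ⟨hm.1, hm.2.1, fun s hs => ⟨MulAction.toPerm s, hπ s, hm.2.2 s hs⟩⟩

theorem gap_act [MulAction G X] (π : X → G) (hπ : ∀ g x, π (g • x) = g * π x) (h : ¬ Folner G) :
    ∃ S : Set G, S.Finite ∧ ∃ ε₀ : ℝ, 0 < ε₀ ∧ ∀ m : X → ℝ, (∀ x, 0 ≤ m x) → HasSum m 1 →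
      ∃ s ∈ S, ε₀ < ∑' x, |m (s⁻¹ • x) - m x| := by
  by_contra hc
  push Not at hc
  exact h (folner_of_act π hπ hc)

/-- Reiter's condition for a subgroup, with measures on the large group -/
theorem folner_of_reiter_sub (H : Subgroup G)
    (h : ∀ S : Set G, S.Finite → S ⊆ H → ∀ η : ℝ, 0 < η → ∃ m : G → ℝ, (∀ g, 0 ≤ m g) ∧
      HasSum m 1 ∧ ∀ s ∈ S, ∑' g, |m (s⁻¹ * g) - m g| ≤ η) : Folner H := by
  obtain ⟨c, hc⟩ : ∃ c : G → G, ∀ g, c g = (Quotient.mk (QuotientGroup.rightRel H) g).out :=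
    ⟨_, fun _ => rfl⟩
  have h1 : ∀ g, g * (c g)⁻¹ ∈ H := fun g => by
    rw [hc]
    exact QuotientGroup.rightRel_apply.1 (Quotient.mk_out (s := QuotientGroup.rightRel H) g)
  have h2 : ∀ (s : H) g, c (s * g) = c g := fun s g => by
    rw [hc, hc, Quotient.sound (QuotientGroup.rightRel_apply.2 (by simp) :
      QuotientGroup.rightRel H (s * g) g)]
  refine folner_of_act (G := H) (X := G) (fun g => ⟨g * (c g)⁻¹, h1 g⟩)
    (fun s g => Subtype.ext ?_) fun S hS η hη => ?_
  · change (s : G) * g * (c (s * g))⁻¹ = s * (g * (c g)⁻¹)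
    rw [h2, mul_assoc]
  · obtain ⟨m, a1, a2, a3⟩ := h ((↑) '' S) (hS.image _) (fun _ ⟨s, _, hs⟩ => hs ▸ s.2) η hη
    exact ⟨m, a1, a2, fun s hs => a3 s ⟨s, hs, rfl⟩⟩

/-- quotients -/
theorem folner_surj (f : G →* A) (hf : Function.Surjective f) (h : Folner G) : Folner A :=
  folner_of_maps f fun S hS η hη => by
    obtain ⟨m, h0, h1, hm⟩ := reiter_of_folner h (Function.surjInv hf '' S) (hS.image _) η hη
    exact ⟨m, h0, h1, fun s hs => ⟨Equiv.mulLeft (Function.surjInv hf s), fun x => by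
      simp [Function.surjInv_eq hf], hm _ ⟨s, hs, rfl⟩⟩⟩

theorem folner_inj (f : G →* A) (hf : Function.Injective f) (h : Folner A) : Folner G :=
  folner_iso (folner_subgroup h f.range) (MonoidHom.ofInjective hf).symm

theorem folner_le {H K : Subgroup G} (hK : H ≤ K) (h : Folner K) : Folner H :=
  folner_inj _ (Subgroup.inclusion_injective hK) h

theorem folner_map (f : G →* A) {H : Subgroup G} (h : Folner H) : Folner (H.map f) :=
  folner_surj _ (f.subgroupMap_surjective H) h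

theorem folner_subgroupOf {H : Subgroup G} (h : Folner H) (K : Subgroup G) :
    Folner (H.subgroupOf K) :=
  folner_inj (((K.subtype).comp (H.subgroupOf K).subtype).codRestrict H fun x => x.2)
    (fun _ _ h' => Subtype.ext (Subtype.ext (congrArg (fun x : H => (x : G)) h'))) h

theorem folner_top : Folner (⊤ : Subgroup G) ↔ Folner G :=
  ⟨fun h => folner_iso h Subgroup.topEquiv, fun h => folner_subgroup h _⟩

theorem folner_fin [Finite G] : Folner G := by
  intro S _ ε hε
  refine ⟨univ, finite_univ, univ_nonempty, fun s _ => ?_⟩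
  rw [sdiff_univ, Set.ncard_empty, Nat.cast_zero]
  positivity

/-- extensions -/
theorem folner_ext (f : G →* A) (hf : Function.Surjective f) (hA : Folner A)
    (hK : Folner f.ker) : Folner G := by
  classical
  intro S hS ε hε
  obtain ⟨FA, hFA, hFAne, hFAs⟩ := hA (f '' S) (hS.image _) (ε / 2) (by positivity)
  obtain ⟨σ, hfσ⟩ : ∃ σ : A → G, ∀ a, f (σ a) = a := ⟨_, Function.surjInv_eq hf⟩
  obtain ⟨κ, hκ⟩ : ∃ κ : G → A → f.ker, ∀ s a, σ (f s * a) * (κ s a : G) = s * σ a :=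
    ⟨fun s a => ⟨(σ (f s * a))⁻¹ * (s * σ a), by
      rw [MonoidHom.mem_ker, map_mul, map_inv, map_mul, hfσ, hfσ, inv_mul_cancel]⟩,
      fun s a => mul_inv_cancel_left _ _⟩
  obtain ⟨FK, hFK, hFKne, hFKs⟩ := hK ((fun x : G × A => κ x.1 x.2) '' (S ×ˢ FA))
    ((hS.prod hFA).image _) (ε / 2) (by positivity)
  obtain ⟨m, hm'⟩ : ∃ m : A × f.ker → G, ∀ x, m x = σ x.1 * (x.2 : G) := ⟨_, fun _ => rfl⟩
  have hm : Function.Injective m := by
    rintro ⟨a, k⟩ ⟨b, l⟩ h
    have h1 : ∀ x, f (m x) = x.1 := fun x => by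
      rw [hm', map_mul, hfσ, MonoidHom.mem_ker.1 x.2.2, mul_one]
    obtain rfl : a = b := (h1 (a, k)).symm.trans ((congrArg f h).trans (h1 (b, l)))
    rw [hm', hm'] at h
    exact Prod.ext rfl (Subtype.ext (mul_left_cancel h))
  refine ⟨m '' (FA ×ˢ FK), (hFA.prod hFK).image _, (hFAne.prod hFKne).image _, fun s hs => ?_⟩
  rw [Set.ncard_image_of_injective _ hm, Set.ncard_prod, ← ncard_bad]
  have hB1 : ({a | a ∈ FA ∧ f s * a ∉ FA} ×ˢ FK).Finite := (hFA.subset fun a h => h.1).prod hFK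
  have hB2 : (⋃ a ∈ hFA.toFinset, {a} ×ˢ {k | k ∈ FK ∧ κ s a * k ∉ FK}).Finite :=
    hFA.toFinset.finite_toSet.biUnion fun a _ =>
      (finite_singleton a).prod (hFK.subset fun k h => h.1)
  have hsub : {a | a ∈ m '' (FA ×ˢ FK) ∧ s * a ∉ m '' (FA ×ˢ FK)} ⊆
      m '' ({a | a ∈ FA ∧ f s * a ∉ FA} ×ˢ FK ∪
        ⋃ a ∈ hFA.toFinset, {a} ×ˢ {k | k ∈ FK ∧ κ s a * k ∉ FK}) := by
    rintro _ ⟨⟨⟨a, k⟩, ⟨ha, hk⟩, rfl⟩, hn⟩
    refine ⟨(a, k), ?_, rfl⟩
    by_cases h1 : f s * a ∈ FA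
    · refine Or.inr (mem_iUnion₂.2 ⟨a, hFA.mem_toFinset.2 ha, rfl, hk, fun h2 => hn ?_⟩)
      exact ⟨(f s * a, κ s a * k), ⟨h1, h2⟩, by
        rw [hm', hm', Subgroup.coe_mul, ← mul_assoc, hκ, mul_assoc]⟩
    · exact Or.inl ⟨⟨ha, h1⟩, hk⟩
  have h1 := ((Set.ncard_le_ncard hsub ((hB1.union hB2).image _)).trans
    (Set.ncard_image_le (hB1.union hB2))).trans ((Set.ncard_union_le _ _).trans
      (Nat.add_le_add_left (Finset.set_ncard_biUnion_le _ _) _))
  refine (Nat.cast_le.2 h1).trans ?_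
  rw [Set.ncard_prod, ncard_bad]
  push_cast
  have h3 := mul_le_mul_of_nonneg_right (hFAs (f s) ⟨s, hs, rfl⟩) (Nat.cast_nonneg FK.ncard)
  have h4 := Finset.sum_le_card_nsmul hFA.toFinset
    (fun a => (({a} ×ˢ {k | k ∈ FK ∧ κ s a * k ∉ FK}).ncard : ℝ)) (ε / 2 * FK.ncard)
    fun a ha => by
      rw [Set.ncard_prod, Set.ncard_singleton, one_mul, ncard_bad]
      exact hFKs _ ⟨(s, a), ⟨hs, hFA.mem_toFinset.1 ha⟩, rfl⟩
  rw [nsmul_eq_mul, ← Set.ncard_eq_toFinset_card _ hFA] at h4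
  linarith

theorem folner_ext' (f : G →* A) (hA : Folner f.range) (hK : Folner f.ker) : Folner G :=
  folner_ext f.rangeRestrict f.rangeRestrict_surjective hA (f.ker_rangeRestrict ▸ hK)

theorem folner_of_normal (N : Subgroup G) [N.Normal] (hN : Folner N) (hQ : Folner (G ⧸ N)) :
    Folner G :=
  folner_ext (QuotientGroup.mk' N) (QuotientGroup.mk'_surjective N) hQ
    ((QuotientGroup.ker_mk' N).symm ▸ hN)

/-- a subgroup is amenable if its image and the kernel are -/
theorem folner_of_map (f : G →* A) {H : Subgroup G} (hA : Folner (H.map f))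
    (hK : Folner (f.ker.subgroupOf H)) : Folner H :=
  folner_ext (f.subgroupMap H) (f.subgroupMap_surjective H) hA ((H.ker_subgroupMap f).symm ▸ hK)

theorem folner_of_finiteIndex (H : Subgroup G) [H.FiniteIndex] (h : Folner H) : Folner G :=
  folner_of_normal H.normalCore (folner_le H.normalCore_le h) folner_fin

/-- a group is amenable if every finite set lies in an amenable subgroup -/
theorem folner_local (h : ∀ S : Set G, S.Finite → ∃ H : Subgroup G, S ⊆ H ∧ Folner H) :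
    Folner G := by
  intro S hS ε hε
  obtain ⟨H, hH, h1⟩ := h S hS
  obtain ⟨F, hF, hne, hs⟩ := h1 ((↑) ⁻¹' S) (hS.preimage Subtype.val_injective.injOn) ε hε
  refine ⟨(↑) '' F, hF.image _, hne.image _, fun s h2 => ?_⟩
  have h3 := hs ⟨s, hH h2⟩ h2
  rw [← ncard_bad, ← Set.ncard_image_of_injective _ Subtype.val_injective,
    ← Set.ncard_image_of_injective F Subtype.val_injective] at h3
  rw [← ncard_bad]
  refine le_trans (Nat.cast_le.2 (Set.ncard_le_ncard ?_ ((hF.subset fun a h => h.1).image _))) h3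
  rintro _ ⟨⟨a, ha, rfl⟩, h4⟩
  exact ⟨a, ⟨ha, fun h5 => h4 ⟨_, h5, rfl⟩⟩, rfl⟩

/-- directed unions -/
theorem folner_sSup {K : Set (Subgroup G)} (hne : K.Nonempty) (hK : DirectedOn (· ≤ ·) K)
    (h : ∀ H ∈ K, Folner H) : Folner (sSup K : Subgroup G) :=
  folner_local fun S hS => by
    obtain ⟨T, hT⟩ := (hS.image Subtype.val).exists_finset_coe
    obtain ⟨H, hH, h1⟩ := DirectedOn.exists_mem_subset_of_finset_subset_biUnion
      (f := fun H : Subgroup G => (H : Set G)) hne hK (s := T) (by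
        rw [hT]
        rintro _ ⟨a, -, rfl⟩
        obtain ⟨H, h1, h2⟩ := (Subgroup.mem_sSup_of_directedOn hne hK).1 a.2
        exact mem_biUnion h1 h2)
    exact ⟨H.subgroupOf _, fun a ha => h1 (hT ▸ ⟨a, ha, rfl⟩), folner_subgroupOf (h H hH) _⟩

theorem folner_sup {N H : Subgroup G} [N.Normal] (hN : Folner N) (hH : Folner H) :
    Folner (N ⊔ H : Subgroup G) := by
  refine folner_of_map (QuotientGroup.mk' N) ?_ ?_
  · rw [Subgroup.map_sup, (Subgroup.map_eq_bot_iff N).2 (QuotientGroup.ker_mk' N).ge, bot_sup_eq]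
    exact folner_map _ hH
  · rw [QuotientGroup.ker_mk']
    exact folner_subgroupOf hN _

/-- commutative groups -/
theorem folner_comm (h : ∀ a b : G, a * b = b * a) : Folner G := by
  classical
  let _ : CommGroup G := { (inferInstance : Group G) with mul_comm := h }
  refine SubexpGrowth.folner fun S hS ε hε => ?_
  obtain ⟨S, rfl⟩ := hS.exists_finset_coe
  refine ⟨(S.card).factorial / ε ^ S.card * Real.exp ε, fun k => ?_⟩
  have h1 : ∀ k : ℕ, ∀ g ∈ (S : Set G) ^ k, ∃ n : S → ℕ, (∀ s, n s ≤ k) ∧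
      ∏ s : S, (s : G) ^ n s = g := fun k => by
    induction k with
    | zero => exact fun g hg => ⟨0, fun _ => le_rfl, by simpa using (Set.mem_one.1 hg).symm⟩
    | succ k ih =>
      rw [pow_succ]
      rintro _ ⟨a, ha, s, hs, rfl⟩
      obtain ⟨n, h2, rfl⟩ := ih a ha
      refine ⟨n + Pi.single ⟨s, hs⟩ 1, fun t => ?_, ?_⟩
      · rw [Pi.add_apply, Pi.single_apply]
        have := h2 t
        split_ifs <;> omega
      · simp only [Pi.add_apply, pow_add, Finset.prod_mul_distrib]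
        rw [Finset.prod_eq_single (f := fun t : S => (t : G) ^ (Pi.single ⟨s, hs⟩ 1 : S → ℕ) t)
          ⟨s, hs⟩ (fun t _ ht => by rw [Pi.single_eq_of_ne ht, pow_zero]) (by simp)]
        simp
  have h2 : ((S : Set G) ^ k).ncard ≤ (k + 1) ^ S.card := by
    refine (Set.ncard_le_ncard (t := (fun n : S → Fin (k + 1) => ∏ s : S, (s : G) ^ (n s : ℕ)) ''
      univ) (fun g hg => ?_) (finite_univ.image _)).trans ((Set.ncard_image_le).trans ?_)
    · obtain ⟨n, h3, rfl⟩ := h1 k g hg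
      exact ⟨fun s => ⟨n s, Nat.lt_succ_of_le (h3 s)⟩, trivial, rfl⟩
    · simp [Set.ncard_univ]
  refine (Nat.cast_le.2 h2).trans ?_
  have h3 := Real.pow_div_factorial_le_exp (x := ε * (k + 1)) (by positivity) S.card
  rw [div_le_iff₀ (by positivity), mul_pow, mul_add, mul_one, Real.exp_add] at h3
  push_cast
  rw [div_mul_eq_mul_div, div_mul_eq_mul_div, le_div_iff₀ (by positivity)]
  linarith

/-- extensions with a commutative kernel -/
theorem folner_ext_comm (f : G →* A) (hA : Folner f.range)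
    (hK : ∀ a b, f a = 1 → f b = 1 → a * b = b * a) : Folner G :=
  folner_ext' f hA (folner_comm fun a b => Subtype.ext (hK a b a.2 b.2))

/-- solvable groups -/
theorem folner_solvable [h : Group.IsSolvable G] : Folner G := by
  obtain ⟨n, hn⟩ := h.solvable
  have key : ∀ k, Folner (derivedSeries G (n - k)) := fun k => by
    induction k with
    | zero =>
      rw [Nat.sub_zero, hn]
      exact folner_fin
    | succ k ih =>
      rcases Nat.lt_or_ge k n with hk | hk
      swap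
      · rwa [show n - (k + 1) = n - k by omega]
      rw [show n - k = n - (k + 1) + 1 by omega, derivedSeries_succ] at ih
      refine folner_ext (Abelianization.of (G := derivedSeries G (n - (k + 1))))
        (fun x => QuotientGroup.mk_surjective x) (folner_comm mul_comm) ?_
      rw [Abelianization.ker_of]
      refine folner_le (fun x hx => ?_) (folner_subgroupOf ih _)
      rw [Subgroup.mem_subgroupOf, ← Subgroup.map_subtype_commutator]
      exact ⟨x, hx, rfl⟩
  have h1 := key n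
  rwa [Nat.sub_self, derivedSeries_zero, folner_top] at h1

end Vale.Agent.P284Z.Am
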