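import Vale.Agent.P284Z.Spec
import Vale.Agent.P284Z.R.Amen

/-!
# P284Z, block R: the quotient by the amenable radical
-/

noncomputable section

namespace Vale.Agent.P284Z

open Vale.Agent.P284.H894.G Am

/-- the amenable radical -/
theorem exists_radical (G : Type*) [Group G] : ∃ R : Subgroup G, R.Normal ∧ Folner R ∧
    ∀ N : Subgroup G, N.Normal → Folner N → N ≤ R := by
  refine ⟨sSup {N | N.Normal ∧ Folner N}, Subgroup.sSup_normal _ fun N h => h.1,
    folner_sSup ⟨⊥, inferInstance, folner_fin⟩ (fun N hN H hH => ?_) fun N h => h.2,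
    fun N h1 h2 => le_sSup ⟨h1, h2⟩⟩
  have := hN.1
  have := hH.1
  exact ⟨N ⊔ H, ⟨inferInstance, folner_sup hN.2 hH.2⟩, le_sup_left, le_sup_right⟩

theorem stR : StR := by
  intro G _ hG
  obtain ⟨R, _, h1, h2⟩ := exists_radical G
  refine ⟨G ⧸ R, inferInstance, QuotientGroup.mk' R, QuotientGroup.mk'_surjective R,
    fun h => hG (folner_of_normal R h1 h), fun N hN h => ?_⟩
  have h3 := h2 (N.comap (QuotientGroup.mk' R)) (hN.comap _) (folner_of_map (QuotientGroup.mk' R)
    (folner_le (Subgroup.map_comap_le _ _) h) (by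
      rw [QuotientGroup.ker_mk']
      exact folner_subgroupOf h1 _))
  rw [← Subgroup.map_comap_eq_self_of_surjective (QuotientGroup.mk'_surjective R) N,
    Subgroup.map_eq_bot_iff, QuotientGroup.ker_mk']
  exact h3

end Vale.Agent.P284Z
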